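import Crest.Agent.Helper65.Switch.Classes

/-!
# S0453, WP-D3 (second track): the fibre of `~_T` for a triple `T` as a three-row table

`t : Fin 3 → Fin n` (injective) lists the triple `T = tri t`.  For a graph `G` the table of `G`
has rows indexed by `Fin 3` and columns `Option (Fin n)`:

* `some w ∈ row t G i` iff `w ∉ T` and `t i ~ w` in `G`;
* `none ∈ row t G i` iff the pair opposite to `t i` (i.e. `{t (i+1), t (i+2)}`) is a NON-edge of `G`
  (the uniform virtual column).

`Tab3 r c` is the set of three-row 0/1 tables with row sums `r` and column sums `c`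
(the same expression as the `tables r c` / `Tab r c` of the D1t packages).
`rsum t G₀`, `csum t G₀` are the margins of the table of `G₀`; `ecount t G` is the number of
edges of `G` inside the triple.  (helper31)
-/

set_option autoImplicit false

namespace Crest.Agent.Helper31.SW3

open Finset Crest.SwitchChain Crest.Agent.Helper65.Switch

variable {n : ℕ}

/-- The triple of vertices listed by `t`. -/
def tri (t : Fin 3 → Fin n) : Finset (Fin n) := {t 0, t 1, t 2}

lemma mem_tri {t : Fin 3 → Fin n} {v : Fin n} : v ∈ tri t ↔ ∃ i, v = t i := by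
  unfold tri
  simp only [Finset.mem_insert, Finset.mem_singleton]
  constructor
  · rintro (h | h | h)
    · exact ⟨0, h⟩
    · exact ⟨1, h⟩
    · exact ⟨2, h⟩
  · rintro ⟨i, rfl⟩
    fin_cases i
    · exact Or.inl rfl
    · exact Or.inr (Or.inl rfl)
    · exact Or.inr (Or.inr rfl)

lemma t_mem_tri (t : Fin 3 → Fin n) (i : Fin 3) : t i ∈ tri t := mem_tri.2 ⟨i, rfl⟩

/-- Row `i` of the table of `G`. -/
noncomputable def row (t : Fin 3 → Fin n) (G : Finset (Edge n)) (i : Fin 3) :
    Finset (Option (Fin n)) := by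
  classical
  exact univ.filter (fun o : Option (Fin n) =>
    (∃ w, o = some w ∧ w ∉ tri t ∧ adj G (t i) w) ∨
      (o = none ∧ ¬ adj G (t (i + 1)) (t (i + 2))))

lemma some_mem_row {t : Fin 3 → Fin n} {G : Finset (Edge n)} {i : Fin 3} {w : Fin n} :
    some w ∈ row t G i ↔ w ∉ tri t ∧ adj G (t i) w := by
  classical
  unfold row
  rw [Finset.mem_filter]
  constructor
  · rintro ⟨-, ⟨w', hw', h⟩ | ⟨h, -⟩⟩
    · rw [Option.some.injEq] at hw'
      subst hw'
      exact h
    · exact absurd h (Option.some_ne_none w)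
  · intro h
    exact ⟨Finset.mem_univ _, Or.inl ⟨w, rfl, h⟩⟩

lemma none_mem_row {t : Fin 3 → Fin n} {G : Finset (Edge n)} {i : Fin 3} :
    none ∈ row t G i ↔ ¬ adj G (t (i + 1)) (t (i + 2)) := by
  classical
  unfold row
  rw [Finset.mem_filter]
  constructor
  · rintro ⟨-, ⟨w', hw', -⟩ | ⟨-, h⟩⟩
    · exact absurd hw'.symm (Option.some_ne_none w')
    · exact h
  · intro h
    exact ⟨Finset.mem_univ _, Or.inr ⟨rfl, h⟩⟩

/-- Three-row 0/1 tables with row sums `r` and column sums `c` (rows as sets of columns). -/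
def Tab3 {C : Type*} [Fintype C] [DecidableEq C] (r : Fin 3 → ℕ) (c : C → ℕ) :
    Finset (Fin 3 → Finset C) :=
  univ.filter (fun x => (∀ i, (x i).card = r i) ∧ ∀ w, (univ.filter (fun i => w ∈ x i)).card = c w)

lemma mem_Tab3 {C : Type*} [Fintype C] [DecidableEq C] {r : Fin 3 → ℕ} {c : C → ℕ}
    {x : Fin 3 → Finset C} :
    x ∈ Tab3 r c ↔ (∀ i, (x i).card = r i) ∧ ∀ w, (univ.filter (fun i => w ∈ x i)).card = c w := by
  unfold Tab3
  rw [Finset.mem_filter]
  exact ⟨fun h => h.2, fun h => ⟨Finset.mem_univ _, h⟩⟩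

/-- Row sums of the table of `G₀`. -/
noncomputable def rsum (t : Fin 3 → Fin n) (G₀ : Finset (Edge n)) : Fin 3 → ℕ :=
  fun i => (row t G₀ i).card

/-- Column sums of the table of `G₀`. -/
noncomputable def csum (t : Fin 3 → Fin n) (G₀ : Finset (Edge n)) : Option (Fin n) → ℕ :=
  fun o => (univ.filter (fun i : Fin 3 => o ∈ row t G₀ i)).card

lemma rsum_def (t : Fin 3 → Fin n) (G₀ : Finset (Edge n)) (i : Fin 3) :
    rsum t G₀ i = (row t G₀ i).card := rfl

lemma csum_def (t : Fin 3 → Fin n) (G₀ : Finset (Edge n)) (o : Option (Fin n)) :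
    csum t G₀ o = (univ.filter (fun i : Fin 3 => o ∈ row t G₀ i)).card := rfl

/-- The table of `G₀` has its own margins. -/
lemma row_mem_Tab3_self (t : Fin 3 → Fin n) (G₀ : Finset (Edge n)) :
    row t G₀ ∈ Tab3 (rsum t G₀) (csum t G₀) :=
  mem_Tab3.2 ⟨fun _ => rfl, fun _ => rfl⟩

/-- The number of edges of `G` inside the triple. -/
noncomputable def ecount (t : Fin 3 → Fin n) (G : Finset (Edge n)) : ℕ := by
  classical
  exact (univ.filter (fun i : Fin 3 => adj G (t (i + 1)) (t (i + 2)))).card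

lemma ecount_def (t : Fin 3 → Fin n) (G : Finset (Edge n)) [DecidablePred
    (fun i : Fin 3 => adj G (t (i + 1)) (t (i + 2)))] :
    ecount t G = (univ.filter (fun i : Fin 3 => adj G (t (i + 1)) (t (i + 2)))).card := by
  unfold ecount
  congr

/-! ### Fin 3 arithmetic -/

lemma fin3_cases (i j : Fin 3) : j = i ∨ j = i + 1 ∨ j = i + 2 := by
  revert i j; decide

lemma fin3_ne1 (i : Fin 3) : i ≠ i + 1 := by revert i; decide
lemma fin3_ne2 (i : Fin 3) : i ≠ i + 2 := by revert i; decide
lemma fin3_ne12 (i : Fin 3) : i + 1 ≠ i + 2 := by revert i; decide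
lemma fin3_add11 (i : Fin 3) : i + 1 + 1 = i + 2 := by revert i; decide
lemma fin3_add12 (i : Fin 3) : i + 1 + 2 = i := by revert i; decide
lemma fin3_add21 (i : Fin 3) : i + 2 + 1 = i := by revert i; decide
lemma fin3_add22 (i : Fin 3) : i + 2 + 2 = i + 1 := by revert i; decide

/-- The pair opposite to `t i`. -/
def opp (t : Fin 3 → Fin n) (i : Fin 3) : Finset (Fin n) := {t (i + 1), t (i + 2)}

lemma mem_opp {t : Fin 3 → Fin n} {i : Fin 3} {v : Fin n} :
    v ∈ opp t i ↔ v = t (i + 1) ∨ v = t (i + 2) := by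
  unfold opp
  simp only [Finset.mem_insert, Finset.mem_singleton]

lemma opp_subset_tri (t : Fin 3 → Fin n) (i : Fin 3) : opp t i ⊆ tri t := by
  intro v hv
  rcases mem_opp.1 hv with rfl | rfl
  · exact t_mem_tri t _
  · exact t_mem_tri t _

end Crest.Agent.Helper31.SW3
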