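import Crest.Agent.Helper31.SW3.Margins

/-!
# S0453, WP-D3 (second track): the fibre of `~_T` is the set of tables with the margins of `G₀`

`t : Fin 3 → Fin n` injective, `T = tri t`, `F = cls d T G₀` (helper31):

* `ecount_eq_of_mem_cls` (M5): the number of edges inside `T` is constant on `F`;
* `row_mem_Tab3` (FWD): `G ∈ F → row t G ∈ Tab3 (rsum t G₀) (csum t G₀)`;
* `eq_of_row_eq` (INJ): `offU T G = offU T G'`, equal tables `⟹ G = G'`;
* `offU_opp_eq_of_row_eq` (KEY): `offU T G = offU T G'`, equal rows `i` `⟹` same `~_{opp t i}`-key;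
* `exists_of_mem_Tab3` (SURJ): every table with the margins of `G₀` is the table of some `G ∈ F`
  (rewiring by `ofAdj`; the degrees come from the margin lemmas applied to the rewired graph).
-/

set_option autoImplicit false

namespace Crest.Agent.Helper31.SW3

open Finset Crest.SwitchChain Crest.Agent.Helper65.Switch

variable {n : ℕ}

/-! ### forward half -/

/-- The column count of a real column is constant on the fibre. -/
lemma card_some_eq_of_mem_cls {t : Fin 3 → Fin n} (ht : Function.Injective t) {d : Fin n → ℕ}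
    {G₀ G : Finset (Edge n)} (hG₀ : G₀ ∈ realizations d) (hG : G ∈ cls d (tri t) G₀)
    (w : Fin n) :
    (univ.filter (fun i : Fin 3 => some w ∈ row t G i)).card
      = (univ.filter (fun i : Fin 3 => some w ∈ row t G₀ i)).card := by
  obtain ⟨hGr, hoff⟩ := mem_cls.1 hG
  by_cases hw : w ∈ tri t
  · rw [card_some_eq_zero G hw, card_some_eq_zero G₀ hw]
  · have h1 := card_some_add_deg_offU ht G hw
    have h2 := card_some_add_deg_offU ht G₀ hw
    rw [hoff, (mem_realizations.1 hGr) w] at h1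
    rw [(mem_realizations.1 hG₀) w] at h2
    omega

/-- **(M5)** the number of edges inside the triple is constant on the fibre. -/
theorem ecount_eq_of_mem_cls {t : Fin 3 → Fin n} (ht : Function.Injective t) {d : Fin n → ℕ}
    {G₀ G : Finset (Edge n)} (hG₀ : G₀ ∈ realizations d) (hG : G ∈ cls d (tri t) G₀) :
    ecount t G = ecount t G₀ := by
  have h1 := sum_deg_tri ht G
  have h2 := sum_deg_tri ht G₀
  have e1 : ∑ i, deg G (t i) = ∑ i, deg G₀ (t i) := by
    refine Finset.sum_congr rfl (fun i _ => ?_)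
    rw [(mem_realizations.1 (mem_cls.1 hG).1) (t i), (mem_realizations.1 hG₀) (t i)]
  have e2 : ∑ w, (univ.filter (fun i : Fin 3 => some w ∈ row t G i)).card
      = ∑ w, (univ.filter (fun i : Fin 3 => some w ∈ row t G₀ i)).card :=
    Finset.sum_congr rfl (fun w _ => card_some_eq_of_mem_cls ht hG₀ hG w)
  rw [e1, e2] at h1
  omega

/-- **(FWD)** the table of a member of the fibre has the margins of `G₀`. -/
theorem row_mem_Tab3 {t : Fin 3 → Fin n} (ht : Function.Injective t) {d : Fin n → ℕ}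
    {G₀ G : Finset (Edge n)} (hG₀ : G₀ ∈ realizations d) (hG : G ∈ cls d (tri t) G₀) :
    row t G ∈ Tab3 (rsum t G₀) (csum t G₀) := by
  have he := ecount_eq_of_mem_cls ht hG₀ hG
  rw [mem_Tab3]
  refine ⟨fun i => ?_, fun o => ?_⟩
  · rw [rsum_def]
    have h1 := card_row_add_ecount ht G i
    have h2 := card_row_add_ecount ht G₀ i
    rw [(mem_realizations.1 (mem_cls.1 hG).1) (t i)] at h1
    rw [(mem_realizations.1 hG₀) (t i)] at h2
    omega
  · rw [csum_def]
    cases o with
    | none =>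
      have h1 := card_none_add_ecount t G
      have h2 := card_none_add_ecount t G₀
      omega
    | some w => exact card_some_eq_of_mem_cls ht hG₀ hG w

/-! ### injectivity and the pair keys -/

lemma fin3_pair : ∀ j k : Fin 3, j ≠ k →
    ∃ i : Fin 3, (j = i + 1 ∧ k = i + 2) ∨ (j = i + 2 ∧ k = i + 1) := by decide

/-- Adjacency inside the triple, read off the virtual column. -/
lemma adj_opp_iff {t : Fin 3 → Fin n} {G : Finset (Edge n)} {i : Fin 3} :
    adj G (t (i + 1)) (t (i + 2)) ↔ none ∉ row t G i := by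
  rw [none_mem_row, not_not]

/-- Adjacency between the triple and its complement, read off the rows. -/
lemma adj_row_iff {t : Fin 3 → Fin n} {G : Finset (Edge n)} {i : Fin 3} {w : Fin n}
    (hw : w ∉ tri t) : adj G (t i) w ↔ some w ∈ row t G i := by
  rw [some_mem_row]
  exact ⟨fun h => ⟨hw, h⟩, fun h => h.2⟩

/-- Two graphs with the same part off the triple and the same row `i` have the same adjacencies
at `t i` towards the complement of the triple. -/
lemma adj_iff_of_row_eq {t : Fin 3 → Fin n} {G G' : Finset (Edge n)} {i : Fin 3}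
    (hrow : row t G i = row t G' i) {w : Fin n} (hw : w ∉ tri t) :
    adj G (t i) w ↔ adj G' (t i) w := by
  rw [adj_row_iff hw, adj_row_iff hw, hrow]

/-- **(INJ)** a graph is determined by its part off the triple and its table. -/
theorem eq_of_row_eq {t : Fin 3 → Fin n} {G G' : Finset (Edge n)}
    (hoff : offU (tri t) G = offU (tri t) G') (hrow : row t G = row t G') : G = G' := by
  refine ext_adj (fun x y => ?_)
  by_cases hx : x ∈ tri t
  · obtain ⟨j, rfl⟩ := mem_tri.1 hx
    by_cases hy : y ∈ tri t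
    · obtain ⟨k, rfl⟩ := mem_tri.1 hy
      by_cases hjk : j = k
      · subst hjk
        exact ⟨fun h => absurd h not_adj_self, fun h => absurd h not_adj_self⟩
      · obtain ⟨i, ⟨rfl, rfl⟩ | ⟨rfl, rfl⟩⟩ := fin3_pair j k hjk
        · rw [adj_opp_iff, adj_opp_iff, hrow]
        · rw [adj_comm (G := G), adj_comm (G := G'), adj_opp_iff, adj_opp_iff, hrow]
    · exact adj_iff_of_row_eq (congrFun hrow j) hy
  · by_cases hy : y ∈ tri t
    · obtain ⟨k, rfl⟩ := mem_tri.1 hy
      rw [adj_comm (G := G), adj_comm (G := G')]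
      exact adj_iff_of_row_eq (congrFun hrow k) hx
    · exact (offU_eq_iff.1 hoff) x y hx hy

lemma eq_of_mem_tri_of_notMem_opp {t : Fin 3 → Fin n} {i : Fin 3} {x : Fin n}
    (hx : x ∈ tri t) (hx' : x ∉ opp t i) : x = t i := by
  obtain ⟨j, rfl⟩ := mem_tri.1 hx
  rcases fin3_cases i j with rfl | rfl | rfl
  · rfl
  · exact absurd (mem_opp.2 (Or.inl rfl)) hx'
  · exact absurd (mem_opp.2 (Or.inr rfl)) hx'

/-- **(KEY)** equal rows `i` (and equal parts off the triple) give the same `~_{opp t i}`-key. -/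
theorem offU_opp_eq_of_row_eq {t : Fin 3 → Fin n} {G G' : Finset (Edge n)}
    (hoff : offU (tri t) G = offU (tri t) G') {i : Fin 3} (hrow : row t G i = row t G' i) :
    offU (opp t i) G = offU (opp t i) G' := by
  rw [offU_eq_iff]
  intro x y hx hy
  by_cases hxT : x ∈ tri t
  · have hxi := eq_of_mem_tri_of_notMem_opp hxT hx
    subst hxi
    by_cases hyT : y ∈ tri t
    · have hyi := eq_of_mem_tri_of_notMem_opp hyT hy
      subst hyi
      exact ⟨fun h => absurd h not_adj_self, fun h => absurd h not_adj_self⟩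
    · exact adj_iff_of_row_eq hrow hyT
  · by_cases hyT : y ∈ tri t
    · have hyi := eq_of_mem_tri_of_notMem_opp hyT hy
      subst hyi
      rw [adj_comm (G := G), adj_comm (G := G')]
      exact adj_iff_of_row_eq hrow hxT
    · exact (offU_eq_iff.1 hoff) x y hxT hyT

/-! ### the rewired graph -/

/-- The adjacency pattern of the graph with part `offU T G₀` off the triple and table `x`. -/
def newAdj (t : Fin 3 → Fin n) (G₀ : Finset (Edge n)) (x : Fin 3 → Finset (Option (Fin n)))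
    (u v : Fin n) : Prop :=
  (u ∉ tri t ∧ v ∉ tri t ∧ adj G₀ u v) ∨
  (∃ i, u = t i ∧ v ∉ tri t ∧ some v ∈ x i) ∨
  (∃ i, v = t i ∧ u ∉ tri t ∧ some u ∈ x i) ∨
  (∃ i, none ∉ x i ∧ ((u = t (i + 1) ∧ v = t (i + 2)) ∨ (u = t (i + 2) ∧ v = t (i + 1))))

lemma newAdj_symm {t : Fin 3 → Fin n} {G₀ : Finset (Edge n)}
    {x : Fin 3 → Finset (Option (Fin n))} (u v : Fin n) (h : newAdj t G₀ x u v) :
    newAdj t G₀ x v u := by
  rcases h with ⟨hu, hv, h⟩ | ⟨i, hu, hv, h⟩ | ⟨i, hv, hu, h⟩ | ⟨i, hi, h⟩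
  · exact Or.inl ⟨hv, hu, adj_comm.1 h⟩
  · exact Or.inr (Or.inr (Or.inl ⟨i, hu, hv, h⟩))
  · exact Or.inr (Or.inl ⟨i, hv, hu, h⟩)
  · refine Or.inr (Or.inr (Or.inr ⟨i, hi, ?_⟩))
    rcases h with ⟨h1, h2⟩ | ⟨h1, h2⟩
    · exact Or.inr ⟨h2, h1⟩
    · exact Or.inl ⟨h2, h1⟩

/-- The rewired graph. -/
noncomputable def newG (t : Fin 3 → Fin n) (G₀ : Finset (Edge n))
    (x : Fin 3 → Finset (Option (Fin n))) : Finset (Edge n) :=
  ofAdj (newAdj t G₀ x)

lemma adj_newG {t : Fin 3 → Fin n} {G₀ : Finset (Edge n)}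
    {x : Fin 3 → Finset (Option (Fin n))} {u v : Fin n} :
    adj (newG t G₀ x) u v ↔ u ≠ v ∧ newAdj t G₀ x u v :=
  adj_ofAdj newAdj_symm

lemma adj_newG_off {t : Fin 3 → Fin n} {G₀ : Finset (Edge n)}
    {x : Fin 3 → Finset (Option (Fin n))} {u v : Fin n} (hu : u ∉ tri t) (hv : v ∉ tri t) :
    adj (newG t G₀ x) u v ↔ adj G₀ u v := by
  rw [adj_newG]
  constructor
  · rintro ⟨-, ⟨-, -, h⟩ | ⟨i, rfl, -, -⟩ | ⟨i, rfl, -, -⟩ | ⟨i, -, ⟨rfl, -⟩ | ⟨rfl, -⟩⟩⟩
    · exact h
    · exact absurd (t_mem_tri t i) hu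
    · exact absurd (t_mem_tri t i) hv
    · exact absurd (t_mem_tri t _) hu
    · exact absurd (t_mem_tri t _) hu
  · intro h
    exact ⟨h.ne, Or.inl ⟨hu, hv, h⟩⟩

lemma adj_newG_row {t : Fin 3 → Fin n} (ht : Function.Injective t) {G₀ : Finset (Edge n)}
    {x : Fin 3 → Finset (Option (Fin n))} {i : Fin 3} {w : Fin n} (hw : w ∉ tri t) :
    adj (newG t G₀ x) (t i) w ↔ some w ∈ x i := by
  rw [adj_newG]
  constructor
  · rintro ⟨-, ⟨hu, -, -⟩ | ⟨j, hj, -, h⟩ | ⟨j, rfl, -, -⟩ | ⟨j, -, ⟨-, rfl⟩ | ⟨-, rfl⟩⟩⟩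
    · exact absurd (t_mem_tri t i) hu
    · rw [ht hj]
      exact h
    · exact absurd (t_mem_tri t j) hw
    · exact absurd (t_mem_tri t _) hw
    · exact absurd (t_mem_tri t _) hw
  · intro h
    refine ⟨?_, Or.inr (Or.inl ⟨i, rfl, hw, h⟩)⟩
    rintro rfl
    exact hw (t_mem_tri t i)

lemma fin3_swap_absurd : ∀ i j : Fin 3, i + 1 = j + 2 → i + 2 = j + 1 → False := by decide

lemma fin3_add_one_inj : ∀ i j : Fin 3, i + 1 = j + 1 → i = j := by decide

lemma adj_newG_int {t : Fin 3 → Fin n} (ht : Function.Injective t) {G₀ : Finset (Edge n)}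
    {x : Fin 3 → Finset (Option (Fin n))} {i : Fin 3} :
    adj (newG t G₀ x) (t (i + 1)) (t (i + 2)) ↔ none ∉ x i := by
  rw [adj_newG]
  constructor
  · rintro ⟨-, ⟨hu, -, -⟩ | ⟨j, -, hv, -⟩ | ⟨j, -, hu, -⟩ | ⟨j, hj, ⟨h1, -⟩ | ⟨h1, h2⟩⟩⟩
    · exact absurd (t_mem_tri t _) hu
    · exact absurd (t_mem_tri t _) hv
    · exact absurd (t_mem_tri t _) hu
    · rw [fin3_add_one_inj i j (ht h1)]
      exact hj
    · exact absurd (fin3_swap_absurd i j (ht h1) (ht h2)) id
  · intro h
    exact ⟨fun hh => fin3_ne12 i (ht hh), Or.inr (Or.inr (Or.inr ⟨i, h, Or.inl ⟨rfl, rfl⟩⟩))⟩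

lemma offU_newG (t : Fin 3 → Fin n) (G₀ : Finset (Edge n))
    (x : Fin 3 → Finset (Option (Fin n))) :
    offU (tri t) (newG t G₀ x) = offU (tri t) G₀ := by
  rw [offU_eq_iff]
  exact fun u v hu hv => adj_newG_off hu hv

lemma row_newG {t : Fin 3 → Fin n} (ht : Function.Injective t) (G₀ : Finset (Edge n))
    {x : Fin 3 → Finset (Option (Fin n))}
    (hx : ∀ i w, w ∈ tri t → some w ∉ x i) : row t (newG t G₀ x) = x := by
  funext i
  ext o
  cases o with
  | none => rw [none_mem_row, adj_newG_int ht, not_not]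
  | some w =>
    rw [some_mem_row]
    by_cases hw : w ∈ tri t
    · exact ⟨fun h => absurd hw h.1, fun h => absurd h (hx i w hw)⟩
    · rw [adj_newG_row ht hw]
      exact ⟨fun h => h.2, fun h => ⟨hw, h⟩⟩

/-- **(SURJ)** every table with the margins of `G₀` is the table of a member of the fibre. -/
theorem exists_of_mem_Tab3 {t : Fin 3 → Fin n} (ht : Function.Injective t) {d : Fin n → ℕ}
    {G₀ : Finset (Edge n)} (hG₀ : G₀ ∈ realizations d)
    {x : Fin 3 → Finset (Option (Fin n))} (hx : x ∈ Tab3 (rsum t G₀) (csum t G₀)) :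
    ∃ G ∈ cls d (tri t) G₀, row t G = x := by
  obtain ⟨hr, hc⟩ := mem_Tab3.1 hx
  have hx0 : ∀ i w, w ∈ tri t → some w ∉ x i := by
    intro i w hw hmem
    have h1 := hc (some w)
    rw [csum_def, card_some_eq_zero G₀ hw, Finset.card_eq_zero, Finset.filter_eq_empty_iff] at h1
    exact h1 (Finset.mem_univ i) hmem
  have hrow := row_newG ht G₀ hx0
  have hoff := offU_newG t G₀ x
  refine ⟨newG t G₀ x, mem_cls.2 ⟨mem_realizations.2 (fun v => ?_), hoff⟩, hrow⟩
  have hd := mem_realizations.1 hG₀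
  by_cases hv : v ∈ tri t
  · obtain ⟨i, rfl⟩ := mem_tri.1 hv
    have h1 := card_row_add_ecount ht (newG t G₀ x) i
    have h2 := card_none_add_ecount t (newG t G₀ x)
    have h3 := card_row_add_ecount ht G₀ i
    have h4 := card_none_add_ecount t G₀
    have h5 := hr i
    have h6 := hc none
    rw [hrow] at h1 h2
    rw [rsum_def] at h5
    rw [csum_def] at h6
    rw [hd (t i)] at h3
    omega
  · have h1 := card_some_add_deg_offU ht (newG t G₀ x) hv
    have h2 := card_some_add_deg_offU ht G₀ hv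
    have h3 := hc (some v)
    rw [hrow, hoff] at h1
    rw [csum_def] at h3
    rw [hd v] at h2
    omega

end Crest.Agent.Helper31.SW3
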