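import Crest.Agent.Helper31.SW3.Defs

/-!
# S0453, WP-D3 (second track): the margins of the table of a graph

For every graph `G` and injective `t : Fin 3 → Fin n` (helper31):

* `card_row_add_ecount` (M1): `(row t G i).card + ecount t G = deg G (t i) + 1`;
* `card_none_add_ecount` (M2): `#{i | none ∈ row t G i} + ecount t G = 3`;
* `card_some_add_deg_offU` (M3): for `w ∉ tri t`,
  `#{i | some w ∈ row t G i} + deg (offU (tri t) G) w = deg G w`;
* `some_notMem_row` (M4): for `w ∈ tri t`, `some w ∉ row t G i`;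
* `sum_deg_tri` : `∑ i, deg G (t i) = 2 * ecount t G + ∑ w, #{i | some w ∈ row t G i}`
  (the double count behind "the number of edges inside the triple is constant on a fibre").
-/

set_option autoImplicit false

namespace Crest.Agent.Helper31.SW3

open Finset Crest.SwitchChain Crest.Agent.Helper65.Switch

variable {n : ℕ}

/-! ### 0/1 indicators -/

open Classical in
/-- The 0/1 indicator of a proposition. -/
noncomputable def ind (p : Prop) : ℕ := if p then 1 else 0

lemma ind_pos {p : Prop} (h : p) : ind p = 1 := by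
  classical
  unfold ind
  exact if_pos h

lemma ind_neg {p : Prop} (h : ¬ p) : ind p = 0 := by
  classical
  unfold ind
  exact if_neg h

lemma ind_congr {p q : Prop} (h : p ↔ q) : ind p = ind q := by
  rw [propext h]

lemma ind_add_ind_not (p : Prop) : ind p + ind (¬ p) = 1 := by
  by_cases h : p
  · rw [ind_pos h, ind_neg (not_not.2 h)]
  · rw [ind_neg h, ind_pos h]

lemma ind_and_left {p q : Prop} (h : p) : ind (p ∧ q) = ind q :=
  ind_congr ⟨fun hh => hh.2, fun hh => ⟨h, hh⟩⟩

lemma ind_and_of_not {p q : Prop} (h : ¬ p) : ind (p ∧ q) = 0 :=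
  ind_neg (fun hh => h hh.1)

lemma card_filter_ind {α : Type*} (s : Finset α) (p : α → Prop) [DecidablePred p] :
    (s.filter p).card = ∑ a ∈ s, ind (p a) := by
  classical
  rw [Finset.card_filter]
  refine Finset.sum_congr rfl (fun a _ => ?_)
  by_cases h : p a
  · rw [if_pos h, ind_pos h]
  · rw [if_neg h, ind_neg h]

lemma card_eq_sum_ind {α : Type*} [Fintype α] [DecidableEq α] (s : Finset α) :
    s.card = ∑ a, ind (a ∈ s) := by
  rw [← card_filter_ind]
  congr 1
  ext a
  simp

lemma card_option_eq {α : Type*} [Fintype α] [DecidableEq α] (s : Finset (Option α)) :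
    s.card = ind (none ∈ s) + ∑ w, ind (some w ∈ s) := by
  rw [card_eq_sum_ind, Fintype.sum_option]

lemma fin3_sum (i : Fin 3) (F : Fin 3 → ℕ) : ∑ j, F j = F i + F (i + 1) + F (i + 2) := by
  rw [Fin.sum_univ_three]
  have h : i = 0 ∨ i = 1 ∨ i = 2 := by revert i; decide
  rcases h with rfl | rfl | rfl
  · rfl
  · have e1 : (1 : Fin 3) + 1 = 2 := rfl
    have e2 : (1 : Fin 3) + 2 = 0 := rfl
    rw [e1, e2]
    omega
  · have e1 : (2 : Fin 3) + 1 = 0 := rfl
    have e2 : (2 : Fin 3) + 2 = 1 := rfl
    rw [e1, e2]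
    omega

/-! ### sums over the triple -/

lemma tri_eq_image (t : Fin 3 → Fin n) : tri t = univ.image t := by
  ext v
  rw [mem_tri, Finset.mem_image]
  constructor
  · rintro ⟨i, rfl⟩
    exact ⟨i, Finset.mem_univ _, rfl⟩
  · rintro ⟨i, -, rfl⟩
    exact ⟨i, rfl⟩

lemma sum_split_tri {t : Fin 3 → Fin n} (ht : Function.Injective t) (g : Fin n → Prop) :
    ∑ w, ind (g w) = ∑ w, ind (w ∉ tri t ∧ g w) + ∑ j, ind (g (t j)) := by
  classical
  have h1 : ∑ w, ind (g w) = ∑ w ∈ (tri t)ᶜ, ind (g w) + ∑ w ∈ tri t, ind (g w) :=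
    (Finset.sum_compl_add_sum (tri t) (fun w => ind (g w))).symm
  have h2 : ∑ w ∈ tri t, ind (g w) = ∑ j, ind (g (t j)) := by
    rw [tri_eq_image, Finset.sum_image (fun a _ b _ h => ht h)]
  have h3 : ∑ w ∈ (tri t)ᶜ, ind (g w) = ∑ w, ind (w ∉ tri t ∧ g w) := by
    rw [← Finset.sum_subset (Finset.subset_univ ((tri t)ᶜ))]
    · refine Finset.sum_congr rfl (fun w hw => ?_)
      rw [Finset.mem_compl] at hw
      exact (ind_and_left hw).symm
    · intro w _ hw
      rw [Finset.mem_compl, not_not] at hw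
      exact ind_and_of_not (not_not.2 hw)
  rw [h1, h2, h3]

/-! ### degrees as indicator sums -/

lemma deg_eq_sum_ind (G : Finset (Edge n)) (v : Fin n) : deg G v = ∑ w, ind (adj G v w) := by
  classical
  rw [deg_eq_card_nb, card_eq_sum_ind]
  exact Finset.sum_congr rfl (fun w _ => ind_congr mem_nb)

lemma deg_split {t : Fin 3 → Fin n} (ht : Function.Injective t) (G : Finset (Edge n))
    (v : Fin n) :
    deg G v = ∑ w, ind (w ∉ tri t ∧ adj G v w) + ∑ j, ind (adj G v (t j)) := by
  rw [deg_eq_sum_ind, sum_split_tri ht]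

lemma card_row (t : Fin 3 → Fin n) (G : Finset (Edge n)) (i : Fin 3) :
    (row t G i).card
      = ind (¬ adj G (t (i + 1)) (t (i + 2))) + ∑ w, ind (w ∉ tri t ∧ adj G (t i) w) := by
  classical
  rw [card_option_eq, ind_congr none_mem_row]
  congr 1
  exact Finset.sum_congr rfl (fun w _ => ind_congr some_mem_row)

lemma ecount_eq_sum (t : Fin 3 → Fin n) (G : Finset (Edge n)) :
    ecount t G = ∑ j : Fin 3, ind (adj G (t (j + 1)) (t (j + 2))) := by
  classical
  rw [ecount_def, card_filter_ind]

lemma ecount_eq (t : Fin 3 → Fin n) (G : Finset (Edge n)) (i : Fin 3) :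
    ecount t G = ind (adj G (t (i + 1)) (t (i + 2))) + ind (adj G (t i) (t (i + 2)))
      + ind (adj G (t i) (t (i + 1))) := by
  rw [ecount_eq_sum, fin3_sum i, fin3_add11, fin3_add12, fin3_add21, fin3_add22,
    ind_congr (adj_comm (G := G) (x := t (i + 2)) (y := t i))]

/-- **(M1)** -/
theorem card_row_add_ecount {t : Fin 3 → Fin n} (ht : Function.Injective t)
    (G : Finset (Edge n)) (i : Fin 3) :
    (row t G i).card + ecount t G = deg G (t i) + 1 := by
  have h1 := card_row t G i
  have h2 := ecount_eq t G i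
  have h3 := deg_split ht G (t i)
  rw [fin3_sum i, ind_neg (not_adj_self (G := G) (x := t i))] at h3
  have h4 := ind_add_ind_not (adj G (t (i + 1)) (t (i + 2)))
  omega

/-- **(M2)** -/
theorem card_none_add_ecount (t : Fin 3 → Fin n) (G : Finset (Edge n)) :
    (univ.filter (fun i : Fin 3 => none ∈ row t G i)).card + ecount t G = 3 := by
  classical
  rw [card_filter_ind, ecount_eq_sum, ← Finset.sum_add_distrib]
  have : ∀ j ∈ (univ : Finset (Fin 3)),
      ind (none ∈ row t G j) + ind (adj G (t (j + 1)) (t (j + 2))) = 1 := by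
    intro j _
    rw [ind_congr none_mem_row, add_comm]
    exact ind_add_ind_not _
  rw [Finset.sum_congr rfl this]
  simp

/-- adjacency in `offU U G`. -/
lemma adj_offU {U : Finset (Fin n)} {G : Finset (Edge n)} {x y : Fin n} :
    adj (offU U G) x y ↔ adj G x y ∧ x ∉ U ∧ y ∉ U := by
  constructor
  · rintro ⟨hxy, hm⟩
    rw [mkE_mem_offU] at hm
    exact ⟨⟨hxy, hm.1⟩, hm.2⟩
  · rintro ⟨⟨hxy, hm⟩, hx, hy⟩
    exact ⟨hxy, (mkE_mem_offU hxy).2 ⟨hm, hx, hy⟩⟩

/-- The number of rows containing the column `some w`. -/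
lemma card_some_eq {t : Fin 3 → Fin n} (G : Finset (Edge n)) {w : Fin n} (hw : w ∉ tri t) :
    (univ.filter (fun i : Fin 3 => some w ∈ row t G i)).card = ∑ j, ind (adj G w (t j)) := by
  classical
  rw [card_filter_ind]
  refine Finset.sum_congr rfl (fun j _ => ?_)
  rw [ind_congr some_mem_row, ind_and_left hw]
  exact ind_congr adj_comm

/-- **(M3)** -/
theorem card_some_add_deg_offU {t : Fin 3 → Fin n} (ht : Function.Injective t)
    (G : Finset (Edge n)) {w : Fin n} (hw : w ∉ tri t) :
    (univ.filter (fun i : Fin 3 => some w ∈ row t G i)).card + deg (offU (tri t) G) w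
      = deg G w := by
  rw [card_some_eq G hw, deg_split ht G w, deg_eq_sum_ind (offU (tri t) G) w, add_comm]
  congr 1
  refine Finset.sum_congr rfl (fun u _ => ind_congr ?_)
  rw [adj_offU]
  constructor
  · rintro ⟨h, -, hu⟩
    exact ⟨hu, h⟩
  · rintro ⟨hu, h⟩
    exact ⟨h, hw, hu⟩

/-- **(M4)** -/
theorem some_notMem_row {t : Fin 3 → Fin n} (G : Finset (Edge n)) (i : Fin 3) {w : Fin n}
    (hw : w ∈ tri t) : some w ∉ row t G i := by
  rw [some_mem_row]
  exact fun h => h.1 hw

lemma card_some_eq_zero {t : Fin 3 → Fin n} (G : Finset (Edge n)) {w : Fin n} (hw : w ∈ tri t) :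
    (univ.filter (fun i : Fin 3 => some w ∈ row t G i)).card = 0 := by
  rw [Finset.card_eq_zero, Finset.filter_eq_empty_iff]
  exact fun i _ => some_notMem_row G i hw

/-- The double count: the degrees of the triple against the columns. -/
theorem sum_deg_tri {t : Fin 3 → Fin n} (ht : Function.Injective t) (G : Finset (Edge n)) :
    ∑ i, deg G (t i)
      = 2 * ecount t G + ∑ w, (univ.filter (fun i : Fin 3 => some w ∈ row t G i)).card := by
  classical
  have h1 : ∀ i ∈ (univ : Finset (Fin 3)), deg G (t i)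
      = ∑ w, ind (some w ∈ row t G i)
        + (ind (adj G (t i) (t (i + 1))) + ind (adj G (t i) (t (i + 2)))) := by
    intro i _
    rw [deg_split ht G (t i), fin3_sum i, ind_neg (not_adj_self (G := G) (x := t i)), zero_add]
    congr 1
    exact Finset.sum_congr rfl (fun w _ => (ind_congr some_mem_row).symm)
  rw [Finset.sum_congr rfl h1, Finset.sum_add_distrib, Finset.sum_comm, add_comm]
  congr 1
  · have h2 : ∀ i ∈ (univ : Finset (Fin 3)),
        ind (adj G (t i) (t (i + 1))) + ind (adj G (t i) (t (i + 2)))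
          = ind (adj G (t (i + 2 + 1)) (t (i + 2 + 2)))
            + ind (adj G (t (i + 1 + 1)) (t (i + 1 + 2))) := by
      intro i _
      rw [fin3_add21, fin3_add22, fin3_add11, fin3_add12,
        ind_congr (adj_comm (G := G) (x := t (i + 2)) (y := t i))]
    rw [Finset.sum_congr rfl h2, Finset.sum_add_distrib, two_mul, ecount_eq_sum]
    congr 1
    · exact Fintype.sum_equiv (Equiv.addRight (2 : Fin 3))
        (fun i => ind (adj G (t (i + 2 + 1)) (t (i + 2 + 2))))
        (fun j => ind (adj G (t (j + 1)) (t (j + 2)))) (fun i => rfl)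
    · exact Fintype.sum_equiv (Equiv.addRight (1 : Fin 3))
        (fun i => ind (adj G (t (i + 1 + 1)) (t (i + 1 + 2))))
        (fun j => ind (adj G (t (j + 1)) (t (j + 2)))) (fun i => rfl)
  · exact Finset.sum_congr rfl (fun w _ => (card_filter_ind _ _).symm)

end Crest.Agent.Helper31.SW3
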